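import Vale.Agent.P057.Main

namespace Vale.Agent.Results.P057.FourAPLowerBound

open Vale.Agent.P057

/-- For every `ε > 0` and all large `N`,
`r_4(N) ≥ N * exp (-(2 * sqrt (log (81/25)) + ε) * sqrt (log N))`,
and the constant `2 * sqrt (log (81/25))` is smaller than `2 * sqrt (log (24/7))`. -/
theorem result :
    (2 * Real.sqrt (Real.log (81 / 25)) < 2 * Real.sqrt (Real.log (24 / 7))) ∧
    ∀ ε : ℝ, 0 < ε → ∃ N₀ : ℕ, ∀ N : ℕ, N₀ ≤ N →
      (N : ℝ) * Real.exp (-(2 * Real.sqrt (Real.log (81 / 25)) + ε) * Real.sqrt (Real.log N))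
        ≤ (rk 4 N : ℝ) := by
  constructor
  · have h1 : Real.log (81 / 25) < Real.log (24 / 7) :=
      Real.log_lt_log (by norm_num) (by norm_num)
    have h2 : Real.sqrt (Real.log (81 / 25)) < Real.sqrt (Real.log (24 / 7)) :=
      Real.sqrt_lt_sqrt (Real.log_nonneg (by norm_num)) h1
    linarith
  · intro ε hε
    have e : Real.log (81 / 25) = 2 * Real.log (9 / 5) := by
      rw [show (81 / 25 : ℝ) = (9 / 5) ^ 2 by norm_num, Real.log_pow]
      norm_num
    rw [e]
    exact main_bound ε hε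

end Vale.Agent.Results.P057.FourAPLowerBound
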