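import Vale.Agent.Results.P057.A0_AllKLowerBound
import Vale.Agent.Results.P057.FourAPLowerBound

namespace Vale.Agent.Results.P057.A00_Combined

open Vale.Agent.P057

theorem result :
    ((2 * Real.sqrt (Real.log (81 / 25)) < 2 * Real.sqrt (Real.log (24 / 7))) ∧
      ∀ ε : ℝ, 0 < ε → ∃ N₀ : ℕ, ∀ N : ℕ, N₀ ≤ N →
        (N : ℝ) * Real.exp (-(2 * Real.sqrt (Real.log (81 / 25)) + ε) * Real.sqrt (Real.log N))
          ≤ (rk 4 N : ℝ)) ∧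
    (∀ n : ℕ, 3 ≤ n →
      ((n : ℝ) * ((2 : ℝ) ^ (n * (n - 1) / 2) * (Real.log 2) ^ (n - 2) * Real.log (12 / 7)) ^ ((1 : ℝ) / n)
        < (n : ℝ) * (2 : ℝ) ^ (((n : ℝ) - 1) / 2) * (Real.log 2) ^ (((n : ℝ) - 1) / n)) ∧
      ∀ k : ℕ, 2 ^ (n - 1) < k → ∀ ε : ℝ, 0 < ε → ∃ N₀ : ℕ, ∀ N : ℕ, N₀ ≤ N →
        (N : ℝ) * Real.exp (-((n : ℝ) * ((2 : ℝ) ^ (n * (n - 1) / 2) * (Real.log 2) ^ (n - 2) *
          Real.log (12 / 7)) ^ ((1 : ℝ) / n) + ε) * (Real.log N) ^ ((1 : ℝ) / n)) ≤ (rk k N : ℝ)) :=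
  ⟨Vale.Agent.Results.P057.FourAPLowerBound.result,
   Vale.Agent.Results.P057.A0_AllKLowerBound.result⟩

end Vale.Agent.Results.P057.A00_Combined
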