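import Vale.Agent.P057.MainG

namespace Vale.Agent.Results.P057.A0_AllKLowerBound

open Vale.Agent.P057

/-- For every `n ≥ 3`, every `k > 2^(n-1)`, every `ε > 0` and all large `N`,
`r_k(N) ≥ N * exp (-(c_n + ε) * (log N)^(1/n))` with
`c_n = n * (2^(n(n-1)/2) * (log 2)^(n-2) * log (12/7))^(1/n)`, and
`c_n < n * 2^((n-1)/2) * (log 2)^((n-1)/n)`. -/
theorem result : ∀ n : ℕ, 3 ≤ n →
    ((n : ℝ) * ((2 : ℝ) ^ (n * (n - 1) / 2) * (Real.log 2) ^ (n - 2) * Real.log (12 / 7)) ^ ((1 : ℝ) / n)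
      < (n : ℝ) * (2 : ℝ) ^ (((n : ℝ) - 1) / 2) * (Real.log 2) ^ (((n : ℝ) - 1) / n)) ∧
    ∀ k : ℕ, 2 ^ (n - 1) < k → ∀ ε : ℝ, 0 < ε → ∃ N₀ : ℕ, ∀ N : ℕ, N₀ ≤ N →
      (N : ℝ) * Real.exp (-((n : ℝ) * ((2 : ℝ) ^ (n * (n - 1) / 2) * (Real.log 2) ^ (n - 2) *
        Real.log (12 / 7)) ^ ((1 : ℝ) / n) + ε) * (Real.log N) ^ ((1 : ℝ) / n)) ≤ (rk k N : ℝ) := by
  intro n hn
  exact ⟨Cn_lt n hn, fun k hk ε hε => main_general n k hn hk ε hε⟩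

end Vale.Agent.Results.P057.A0_AllKLowerBound
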