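import Vale.Agent.P057.Main5
import Vale.Agent.P057.Mono

namespace Vale.Agent.Results.P057.FiveAPLowerBound

open Vale.Agent.P057

/-- For every `k ≥ 5`, every `ε > 0` and all large `N`,
`r_k(N) ≥ N * exp (-(c + ε) * (log N)^(1/3))` with `c = 3 * (4 * log (12/7) * log 4)^(1/3)`,
and `c < 6 * (log 2)^(2/3)`. -/
theorem result :
    (3 * (4 * Real.log (12 / 7) * Real.log 4) ^ (1 / 3 : ℝ) < 6 * (Real.log 2) ^ (2 / 3 : ℝ)) ∧
    ∀ k : ℕ, 5 ≤ k → ∀ ε : ℝ, 0 < ε → ∃ N₀ : ℕ, ∀ N : ℕ, N₀ ≤ N →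
      (N : ℝ) * Real.exp (-(3 * (4 * Real.log (12 / 7) * Real.log 4) ^ (1 / 3 : ℝ) + ε) *
        (Real.log N) ^ (1 / 3 : ℝ)) ≤ (rk k N : ℝ) := by
  constructor
  · have hl2 : 0 < Real.log 2 := Real.log_pos (by norm_num)
    have hl1 : 0 < Real.log (12 / 7) := Real.log_pos (by norm_num)
    have h4 : Real.log 4 = 2 * Real.log 2 := by
      rw [show (4 : ℝ) = 2 ^ 2 by norm_num, Real.log_pow]
      norm_num
    have hlt : Real.log (12 / 7) < Real.log 2 := Real.log_lt_log (by norm_num) (by norm_num)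
    have e : 6 * (Real.log 2) ^ (2 / 3 : ℝ) = 3 * (4 * Real.log 2 * Real.log 4) ^ (1 / 3 : ℝ) := by
      rw [h4]
      have e1 : 4 * Real.log 2 * (2 * Real.log 2) = (2 : ℝ) ^ (3 : ℝ) * (Real.log 2) ^ (2 : ℝ) := by
        rw [Real.rpow_two]
        norm_num
        ring
      rw [e1, Real.mul_rpow (by positivity) (by positivity), ← Real.rpow_mul (by norm_num),
        ← Real.rpow_mul hl2.le]
      norm_num
      ring
    rw [e]
    have hlt2 : 4 * Real.log (12 / 7) * Real.log 4 < 4 * Real.log 2 * Real.log 4 := by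
      have : 0 < Real.log 4 := Real.log_pos (by norm_num)
      nlinarith
    have := Real.rpow_lt_rpow (by positivity) hlt2 (by norm_num : (0 : ℝ) < 1 / 3)
    linarith
  · intro k hk ε hε
    obtain ⟨N₀, hN₀⟩ := main5_bound ε hε
    refine ⟨N₀, fun N hN => (hN₀ N hN).trans ?_⟩
    exact_mod_cast rk_mono_k (by norm_num) hk N

end Vale.Agent.Results.P057.FiveAPLowerBound
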